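import Vale.Agent.P241GR.D

/-!
# P241G, row D1: the cells `G/H × (ℝ^j ⊕ a ρ')`
-/

open CategoryTheory MonoidalCategory Limits OnePoint Matrix

noncomputable section

namespace Vale.Agent.P241GV

open P251.G P251.G.LC P251.H P251.St P241.St P241GX P241GA P241GA.GIn P241GR
open P241Z (reg)

universe u

variable {G : Type} [Group G] [Finite G]

omit [Finite G] in
theorem tw_mem {j a : ℕ} (g : G) (x : Red G j a) : (x.1.1, tw g x.1.2) ∈ Red G j a := fun i =>
  (finsum_comp_equiv (Equiv.mulLeft g⁻¹) (f := x.1.2 i)).trans (x.2 i)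

omit [Finite G] in
theorem continuous_tw {j a : ℕ} (g : G) :
    Continuous fun x : Red G j a => (⟨(x.1.1, tw g x.1.2), tw_mem g x⟩ : Red G j a) := by
  refine Continuous.subtype_mk ?_ _
  unfold tw
  fun_prop

variable (G) in
/-- the representation `ℝ^j ⊕ a ρ'` -/
def Rd (j a : ℕ) : GSpace G :=
  haveI : LocallyCompactSpace (Red G j a) := id (lc_red j a)
  letI : MulAction G (Red G j a) :=
    { smul := fun g x => ⟨(x.1.1, tw g x.1.2), tw_mem g x⟩
      one_smul := fun x => Subtype.ext (Prod.ext rfl (funext fun i => funext fun k =>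
        congrArg (x.1.2 i) (by rw [inv_one, one_mul])))
      mul_smul := fun g h x => Subtype.ext (Prod.ext rfl (funext fun i => funext fun k =>
        congrArg (x.1.2 i) (by rw [_root_.mul_inv_rev, mul_assoc]))) }
  haveI : ContinuousConstSMul G (Red G j a) :=
    ⟨fun g => continuous_tw g⟩
  ⟨Red G j a⟩

theorem rd_und (j a : ℕ) : (Rd G j a).und = Dm G j a := rfl

theorem rd_smul {j a : ℕ} (g : G) (x : (Rd G j a).carrier) :
    (g • x).1 = (x.1.1, tw g x.1.2) := rfl

/-- the cell `G/H × (ℝ^j ⊕ a ρ')` -/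
def Kc (H : Subgroup G) (j a : ℕ) : GSpace G := (cell G H 0).prod (Rd G j a)

omit [Group G] [Finite G] in
theorem cons_mem {j j' a : ℕ} {w : G → ℝ} (hw : ∑ᶠ k, w k = 0) (x : Red G j a)
    (y : Fin j' → ℝ) : (y, vecCons w x.1.2) ∈ Red G j' (a + 1) := fun i =>
  Fin.cases (motive := fun i => ∑ᶠ k, vecCons w x.1.2 i k = 0) hw (fun i => x.2 i) i

omit [Group G] [Finite G] in
theorem tail_mem {j j' a : ℕ} (x : Red G j (a + 1)) (y : Fin j' → ℝ) :
    (y, vecTail x.1.2) ∈ Red G j' a := fun i => x.2 i.succ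

omit [Finite G] in
theorem tw_cons {a : ℕ} (g : G) (w : G → ℝ) (s : Fin a → G → ℝ) :
    tw g (vecCons w s) = vecCons (fun k => w (g⁻¹ * k)) (tw g s) :=
  funext fun i => Fin.cases rfl (fun _ => rfl) i

variable (H : Subgroup G) (j a : ℕ)

/-- the orbit -/
def kc0 : orb H ≅ gl (Kc H 0 0) :=
  glIso
    { toFun := fun c => (c, ⟨(Fin.elim0, Fin.elim0), fun i => i.elim0⟩)
      invFun := fun x => x.1
      left_inv := fun _ => rfl
      right_inv := fun _ => Prod.ext rfl (Subtype.ext (Subsingleton.elim _ _))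
      continuous_toFun := continuous_id.prodMk continuous_const
      continuous_invFun := continuous_fst }
    fun _ _ => Prod.ext rfl (Subtype.ext (Subsingleton.elim _ _))

/-- `ℝ × (ℝ^j ⊕ a ρ') = ℝ^{j+1} ⊕ a ρ'` -/
def sH : ℝ × (Kc H j a).carrier ≃ₜ (Kc H (j + 1) a).carrier where
  toFun p := (p.2.1, ⟨(vecCons p.1 p.2.2.1.1, p.2.2.1.2), p.2.2.2⟩)
  invFun q := (q.2.1.1 0, (q.1, ⟨(vecTail q.2.1.1, q.2.1.2), q.2.2⟩))
  left_inv _ := rfl
  right_inv q := Prod.ext rfl (Subtype.ext (Prod.ext (cons_head_tail q.2.1.1) rfl))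
  continuous_toFun := by
    have h : Continuous fun p : ℝ × (Kc H j a).carrier => p.2.2.1 :=
      continuous_subtype_val.comp (continuous_snd.comp continuous_snd)
    exact (continuous_fst.comp continuous_snd).prodMk (Continuous.subtype_mk
      ((continuous_fst.matrixVecCons h.fst).prodMk h.snd) _)
  continuous_invFun := by
    have h : Continuous fun q : (Kc H (j + 1) a).carrier => q.2.1 :=
      continuous_subtype_val.comp continuous_snd
    exact ((continuous_apply 0).comp h.fst).prodMk (continuous_fst.prodMk (Continuous.subtype_mk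
      ((continuous_pi fun i => (continuous_apply (Fin.succ i)).comp h.fst).prodMk h.snd) _))

/-- `ρ' × (ℝ^j ⊕ a ρ') = ℝ^j ⊕ (a + 1) ρ'` -/
def lH : (redS G).carrier × (Kc H j a).carrier ≃ₜ (Kc H j (a + 1)).carrier where
  toFun p := (p.2.1, ⟨(p.2.2.1.1, vecCons p.1.1 p.2.2.1.2), cons_mem p.1.2 p.2.2 _⟩)
  invFun q := (⟨q.2.1.2 0, q.2.2 0⟩, (q.1, ⟨(q.2.1.1, vecTail q.2.1.2), tail_mem q.2 _⟩))
  left_inv _ := rfl
  right_inv q := Prod.ext rfl (Subtype.ext (Prod.ext rfl (cons_head_tail q.2.1.2)))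
  continuous_toFun := by
    have h : Continuous fun p : (redS G).carrier × (Kc H j a).carrier => p.2.2.1 :=
      continuous_subtype_val.comp (continuous_snd.comp continuous_snd)
    exact (continuous_fst.comp continuous_snd).prodMk (Continuous.subtype_mk
      (h.fst.prodMk ((continuous_subtype_val.comp continuous_fst).matrixVecCons h.snd)) _)
  continuous_invFun := by
    have h : Continuous fun q : (Kc H j (a + 1)).carrier => q.2.1 :=
      continuous_subtype_val.comp continuous_snd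
    exact (Continuous.subtype_mk ((continuous_apply 0).comp h.snd) _).prodMk
      (continuous_fst.prodMk (Continuous.subtype_mk
        (h.fst.prodMk (continuous_pi fun i => (continuous_apply (Fin.succ i)).comp h.snd)) _))

/-- `ℝ ⊗ K_{j,a} ≅ K_{j+1,a}` -/
def sI : (triv LC G).obj RR ⊗ gl (Kc H j a) ≅ gl (Kc H (j + 1) a) :=
  whiskerRightIso (glTriv G Rr) _ ≪≫ glProd _ _ ≪≫
    glIso (X := (GSpace.triv G Rr).prod (Kc H j a)) (sH H j a) fun _ _ => rfl

/-- `ρ' ⊗ K_{j,a} ≅ K_{j,a+1}` -/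
def lI : Kb G ⊗ gl (Kc H j a) ≅ gl (Kc H j (a + 1)) :=
  glProd _ _ ≪≫ glIso (X := (redS G).prod (Kc H j a)) (lH H j a) fun g p =>
    Prod.ext rfl (Subtype.ext (Prod.ext rfl (tw_cons g p.1.1 p.2.2.1.2).symm))

/-- `ℝ^{j+1} ⊕ (a + 1) ρ' = ρ × (ℝ^j ⊕ a ρ')` -/
def rH : (Kc H (j + 1) (a + 1)).carrier ≃ₜ (G → ℝ) × (Kc H j a).carrier :=
  (lH H (j + 1) a).symm.trans (((Homeomorph.refl _).prodCongr (sH H j a).symm).trans
    ((Homeomorph.prodAssoc _ _ _).symm.trans ((eHomeo G).prodCongr (Homeomorph.refl _))))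

theorem rH_apply (q : (Kc H (j + 1) (a + 1)).carrier) :
    rH H j a q = (fun k => q.2.1.1 0 + q.2.1.2 0 k,
      (q.1, ⟨(vecTail q.2.1.1, vecTail q.2.1.2), tail_mem q.2 _⟩)) := rfl

/-- `K_{j+1,a+1} ≅ ρ × K_{j,a}` -/
def rI : gl (Kc H (j + 1) (a + 1)) ≅ gl ((reg G).prod (Kc H j a)) :=
  glIso (Y := (reg G).prod (Kc H j a)) (rH H j a) fun _ _ => rfl

variable (M : Type u) [Category.{0} M] [MonoidalCategory M] [SymmetricCategory M]
  [MonoidalClosed M] [HasZeroMorphisms M] [HasColimitsOfSize.{0, 0} M] [GIn G M]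

/-- the test objects -/
abbrev T : M := (TF M a).obj (gl (Kc H j a))

/-- the stabilisation -/
def sg : T H (j + 1) (a + 1) M ⟶ T H j a M :=
  (TF M (a + 1)).map (rI H j a).hom ≫ stb M a (Kc H j a)

end Vale.Agent.P241GV
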